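import Mathlib

open Set

namespace Vale.Agent.P069

variable (X : Type*) [NormedAddCommGroup X] [NormedSpace ℝ X]

/-- The family of closed linear subspaces of finite codimension. -/
def Cof : Set (Submodule ℝ X) :=
  {F | IsClosed (F : Set X) ∧ FiniteDimensional ℝ (X ⧸ F)}

variable {X}

/-- `N` is a norm on `X` equivalent to the given norm. -/
def IsEquivalentNorm (N : Seminorm ℝ X) : Prop :=
  ∃ c > 0, ∃ C > 0, ∀ x : X, c * ‖x‖ ≤ N x ∧ N x ≤ C * ‖x‖

/-- The modulus of asymptotic uniform convexity of the norm `N`. -/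
noncomputable def aucModulus (N : Seminorm ℝ X) (t : ℝ) : EReal :=
  ⨅ x : {x : X // N x = 1}, ⨆ F : {F : Submodule ℝ X // F ∈ Cof X},
    ⨅ y : {y : X // y ∈ F.1 ∧ N y = 1}, ((N (x.1 + t • y.1) - 1 : ℝ) : EReal)

/-- The modulus of asymptotic midpoint uniform convexity of the norm `N`. -/
noncomputable def amucModulus (N : Seminorm ℝ X) (t : ℝ) : EReal :=
  ⨅ x : {x : X // N x = 1}, ⨆ F : {F : Submodule ℝ X // F ∈ Cof X},
    ⨅ y : {y : X // y ∈ F.1 ∧ N y = 1},
      ((max (N (x.1 + t • y.1)) (N (x.1 - t • y.1)) - 1 : ℝ) : EReal)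

/-- `N` is asymptotically uniformly convex. -/
def IsAUC (N : Seminorm ℝ X) : Prop := ∀ t : ℝ, 0 < t → 0 < aucModulus N t

/-- `N` is asymptotically midpoint uniformly convex. -/
def IsAMUC (N : Seminorm ℝ X) : Prop := ∀ t : ℝ, 0 < t → 0 < amucModulus N t

variable (X)

/-- `X` has an equivalent AUC norm. -/
def AUCRenormable : Prop := ∃ N : Seminorm ℝ X, IsEquivalentNorm N ∧ IsAUC N

/-- `X` has an equivalent AMUC norm. -/
def AMUCRenormable : Prop := ∃ N : Seminorm ℝ X, IsEquivalentNorm N ∧ IsAMUC N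

/-- `X` is reflexive: the canonical map into the bidual is onto. -/
def IsReflexiveSpace : Prop :=
  Function.Surjective (NormedSpace.inclusionInDoubleDual ℝ X)

end Vale.Agent.P069
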